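import Vale.Agent.P273.H285.Tab

/-!
# The numbers of the certificate and the kernel check of the symmetrized coefficients
-/

namespace Vale.Agent.P273.H285

/-- the numbers `128 v_i (A^a B1^b B0^(7-a-b))` of the three annuli -/
def NL : Fin 3 → List (List Int)
  | 0 =>
    [[0, 15120, -68640, 198000, -459072, 930000, -1715040, 2948400], [0, -30240, 117120, -308160,
      671616, -1300320, 2315520], [0, 60480, -193920, 470880, -966528, 1795200], [0, -120960, 307200,
      -711360, 1363968], [0, 241920, -453120, 1082880], [0, -483840, 583680], [0, 967680], [0]]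
  | 1 =>
    [[0, -720, -1440, 720, 8640, -1680, -108000, 498960], [0, 1440, 3840, 1440, -16128, -10080,
      207360], [0, -2880, -9600, -10080, 24192, 40320], [0, 5760, 23040, 37440, -18432], [0, -11520,
      -53760, -115200], [0, 23040, 122880], [0, -46080], [0]]
  | 2 =>
    [[0, 5760, -11520, 11520, -6912, 1920, 0, 0], [0, -11520, 15360, -11520, 4608, 0, 0], [0, 23040,
      -15360, 11520, 0, 0], [0, -46080, 0, -23040, -18432], [0, 92160, 61440, 92160], [0, -184320,
      -245760], [0, 368640], [0]]

/-- the numbers `w_i (X0 gA^a gB^(6-a))` of the three tori -/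
def ML : Fin 3 → List Int
  | 0 => [3240, -3060, -4392, 19422, -37200, 42720, 0]
  | 1 => [0, -20400, 45696, -63198, 61680, -37920, 0]
  | 2 => [0, 10320, -17760, 21402, -19608, 10260, 3240]

/-- entries of the first table -/
def gN (i : Fin 3) (a b : ℕ) : Int := ((NL i).getD a []).getD b 0

/-- entries of the second table -/
def gM (i : Fin 3) (a : ℕ) : Int := (ML i).getD a 0

/-- the numbers of the annuli -/
def NQ (i : Fin 3) (a b _c : ℕ) : ℚ := (gN i a b : ℚ) / 128

/-- the numbers of the tori -/
def MQ (i : Fin 3) (a _c : ℕ) : ℚ := (gM i a : ℚ)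

theorem chk_NM : chk NQ MQ (-27 / 28) := by decide +kernel

end Vale.Agent.P273.H285
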