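import Vale.Agent.P273.H25.Coef
import Vale.Agent.P273.H503.Top

/-!
# The coefficients of the limit as rational numbers, and the symmetrized coefficients

Row LIM-Q-K, last step: from the numbers `N i a b c = v_i (A^a B1^b B0^c)` and
`M i a c = w_i (X0 gA^a gB^c)` to the 28 numbers `CC z p q` and to `Coeff` of `H503/Top`.
-/

noncomputable section

namespace Vale.Agent.P273.H285

open Finset MvPolynomial Vale.Agent.P273.H213 Vale.Agent.P273.H221 Vale.Agent.P273.H25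

/-- the product of the factorials -/
def fQ (n : Fin 3 → ℕ) : ℚ := ((n 0).factorial : ℚ) * ((n 1).factorial : ℚ) * ((n 2).factorial : ℚ)

/-- the sign of a torus; the tori are `0 = (1,3)`, `1 = (1,5)`, `2 = (3,5)` -/
def sQ (k : Fin 3) : ℚ := if k = 1 then 1 else -1

/-- the torus, `M a c = w (X0 gA^a gB^c)` -/
def torQ (k : Fin 3) (M : ℕ → ℕ → ℚ) (n : Fin 3 → ℕ) : ℚ :=
  sQ k * (1 / 9) * (1 / 3 : ℚ) ^ (n 0 + n 1 + n 2) * (∑ x ∈ range (n 1 + 1),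
      (-1) ^ n 1 * ((n 1).choose x : ℚ) * M (n 0 + x) (n 1 - x + n 2)) / fQ n

/-- the annulus, `N a b c = v (fA^a fD^b fB^c)` -/
def annQ (i : Fin 3) (N : ℕ → ℕ → ℕ → ℚ) (n : Fin 3 → ℕ) : ℚ :=
  (∑ x ∈ range (n (kc i) + 1), ∑ s ∈ range (n (kc i) - x + n (kb i) + 1),
        ((-1) ^ n (kc i) * ((n (kc i)).choose x : ℚ) *
          ((n (kc i) - x + n (kb i)).choose s : ℚ) *
          N (n i + x + 1) s (n (kc i) - x + n (kb i) - s)) *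
          bt (n i + x) s) / fQ n

theorem fac_eq (n : Fin 3 → ℕ) : fac n = ((fQ n : ℚ) : ℝ) := by
  rw [fac, Fin.prod_univ_three, fQ]
  push_cast
  rfl

theorem torC_rat {i j : Fin 3} (hij : i < j) {k : Fin 3} (hk : tsg i j = ((sQ k : ℚ) : ℝ)) {w : VV}
    {M : ℕ → ℕ → ℚ} (hM : ∀ a c, a + c = 6 → w (X 0 * gA ^ a * gB ^ c) = ((M a c : ℚ) : ℝ))
    {n : Fin 3 → ℕ} (hn : n 0 + n 1 + n 2 = 6) : torC i j w n = ((torQ k M n : ℚ) : ℝ) := by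
  rw [torC_eq hij, fac_eq, hk, torQ]
  push_cast
  congr 2
  refine Finset.sum_congr rfl fun x hx => ?_
  rw [Finset.mem_range] at hx
  rw [hM _ _ (by omega)]

theorem annC_rat {i : Fin 3} {v : VV} {N : ℕ → ℕ → ℕ → ℚ}
    (hN : ∀ a b c, a + b + c = 7 → v (fA i ^ a * fD i ^ b * fB i ^ c) = ((N a b c : ℚ) : ℝ))
    {n : Fin 3 → ℕ} (hn : n 0 + n 1 + n 2 = 6) : annC i v n = ((annQ i N n : ℚ) : ℝ) := by
  have hn' : n i + n (kc i) + n (kb i) = 6 := by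
    fin_cases i <;> simp [kb, kc] <;> omega
  rw [annC_eq, fac_eq, annQ]
  push_cast
  congr 1
  refine Finset.sum_congr rfl fun x hx => Finset.sum_congr rfl fun s hs => ?_
  rw [Finset.mem_range] at hx hs
  rw [hN _ _ _ (by omega)]

/-- the coefficients of the three annuli -/
def vv (z : Cert sV) : Fin 3 → VV := ![z.v1, z.v3, z.v5]

/-- the coefficients of the three tori -/
def ww (z : Cert sV) : Fin 3 → VV := ![z.w13, z.w15, z.w35]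

/-- the numbers of a certificate -/
structure Vals (z : Cert sV) (N : Fin 3 → ℕ → ℕ → ℕ → ℚ) (M : Fin 3 → ℕ → ℕ → ℚ) : Prop where
  n : ∀ i a b c, a + b + c = 7 → vv z i (fA i ^ a * fD i ^ b * fB i ^ c) = ((N i a b c : ℚ) : ℝ)
  m : ∀ i a c, a + c = 6 → ww z i (X 0 * gA ^ a * gB ^ c) = ((M i a c : ℚ) : ℝ)

/-- the coefficient as a rational number -/
def CQ (N : Fin 3 → ℕ → ℕ → ℕ → ℚ) (M : Fin 3 → ℕ → ℕ → ℚ) (p q : ℕ) : ℚ :=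
  torQ 0 (M 0) ![p, q - p, 6 - q] + torQ 1 (M 1) ![p, q - p, 6 - q] +
    torQ 2 (M 2) ![p, q - p, 6 - q] - annQ 0 (N 0) ![p, q - p, 6 - q] -
    annQ 1 (N 1) ![p, q - p, 6 - q] - annQ 2 (N 2) ![p, q - p, 6 - q]

theorem CC_eq {z : Cert sV} {N : Fin 3 → ℕ → ℕ → ℕ → ℚ} {M : Fin 3 → ℕ → ℕ → ℚ}
    (h : Vals z N M) {p q : ℕ} (hp : p ≤ q) (hq : q ≤ 6) : CC z p q = ((CQ N M p q : ℚ) : ℝ) := by
  have hn : (![p, q - p, 6 - q] : Fin 3 → ℕ) 0 + (![p, q - p, 6 - q] : Fin 3 → ℕ) 1 +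
      (![p, q - p, 6 - q] : Fin 3 → ℕ) 2 = 6 := by
    simp only [Matrix.cons_val_zero, Matrix.cons_val_one, Matrix.cons_val]
    omega
  have t0 : torC 0 1 z.w13 ![p, q - p, 6 - q] = ((torQ 0 (M 0) ![p, q - p, 6 - q] : ℚ) : ℝ) :=
    torC_rat (by decide) (by norm_num [tsg, sQ]) (h.m 0) hn
  have t1 : torC 0 2 z.w15 ![p, q - p, 6 - q] = ((torQ 1 (M 1) ![p, q - p, 6 - q] : ℚ) : ℝ) :=
    torC_rat (by decide) (by simp [tsg, sQ]) (h.m 1) hn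
  have t2 : torC 1 2 z.w35 ![p, q - p, 6 - q] = ((torQ 2 (M 2) ![p, q - p, 6 - q] : ℚ) : ℝ) :=
    torC_rat (by decide) (by simp [tsg, sQ]) (h.m 2) hn
  have a0 : annC 0 z.v1 ![p, q - p, 6 - q] = ((annQ 0 (N 0) ![p, q - p, 6 - q] : ℚ) : ℝ) :=
    annC_rat (h.n 0) hn
  have a1 : annC 1 z.v3 ![p, q - p, 6 - q] = ((annQ 1 (N 1) ![p, q - p, 6 - q] : ℚ) : ℝ) :=
    annC_rat (h.n 1) hn
  have a2 : annC 2 z.v5 ![p, q - p, 6 - q] = ((annQ 2 (N 2) ![p, q - p, 6 - q] : ℚ) : ℝ) :=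
    annC_rat (h.n 2) hn
  rw [CC, CQ, t0, t1, t2, a0, a1, a2]
  push_cast
  ring

/-- the check of the symmetrized coefficients -/
def chk (N : Fin 3 → ℕ → ℕ → ℕ → ℚ) (M : Fin 3 → ℕ → ℕ → ℚ) (K : ℚ) : Prop :=
  K ≠ 0 ∧ CQ N M 2 4 = K ∧
  CQ N M 1 3 + CQ N M 1 4 + CQ N M 2 3 + CQ N M 2 5 + CQ N M 3 4 + CQ N M 3 5 = -2 * K ∧
  CQ N M 0 3 + CQ N M 3 3 + CQ N M 3 6 = K ∧
  CQ N M 1 2 + CQ N M 1 5 + CQ N M 4 5 = K ∧
  CQ N M 0 2 + CQ N M 0 4 + CQ N M 2 2 + CQ N M 2 6 + CQ N M 4 4 + CQ N M 4 6 = -K ∧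
  CQ N M 0 1 + CQ N M 0 5 + CQ N M 1 1 + CQ N M 1 6 + CQ N M 5 5 + CQ N M 5 6 = 0 ∧
  CQ N M 0 0 + CQ N M 0 6 + CQ N M 6 6 = 0

instance (N : Fin 3 → ℕ → ℕ → ℕ → ℚ) (M : Fin 3 → ℕ → ℕ → ℚ) (K : ℚ) :
    Decidable (chk N M K) := by
  unfold chk
  infer_instance

/-- **the symmetrized coefficients from the numbers of the certificate** -/
theorem coeff_of {z : Cert sV} {N : Fin 3 → ℕ → ℕ → ℕ → ℚ} {M : Fin 3 → ℕ → ℕ → ℚ} {K : ℚ}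
    (h : Vals z N M) (hc : chk N M K) : H503.Coeff (CC z) ((K : ℚ) : ℝ) := by
  obtain ⟨h0, h1, h2, h3, h4, h5, h6, h7⟩ := hc
  refine ⟨by exact_mod_cast h0, ?_, ?_, ?_, ?_, ?_, ?_, ?_⟩ <;>
    simp only [CC_eq h, Nat.reduceLeDiff, le_refl, Nat.zero_le] <;>
    first | exact_mod_cast h1 | exact_mod_cast h2 | exact_mod_cast h3 | exact_mod_cast h4
          | exact_mod_cast h5 | exact_mod_cast h6 | exact_mod_cast h7

end Vale.Agent.P273.H285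

end
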