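import Vale.Agent.P273.H285.UniAlg
import Vale.Agent.P273.H93.Dict

/-!
P273, row S6-uni: the value of the multilinear form on the gap directions of the large gaps and two
base vectors is the value `DTc` on the cluster directions.
-/

noncomputable section

namespace Vale.Agent.P273.H285

open Finset Vale.Agent.P273.H254 Vale.Agent.P273.H732 Vale.Agent.P273.H562
open Vale.Agent.P273.H95 Vale.Agent.P273.H728 Vale.Agent.P273.H93
open Vale.Agent.P273.H573 hiding cmp

/-! ### the one-forms of the marks -/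

section Th

variable (R : H95.Region) (m : ∀ k, Fin (R.n k + 1)) (B : Finset R.Gap) (y : Fin 3 → ℝ)

/-- the value of the core on a vector -/
def cval (v : Co R m) : H4 := ∑ l : Fin 3, (v.2.2.1 l • dlY y l + v.2.2.2.1 l • dlA y l)

theorem thL_core {j : L} {s : Bool} (h : H573.cmp R B j = Sum.inl s) (v : Co R m) :
    thL R m B y j v = (if s then (-1 : ℝ) else 1) • cval R m y v := by
  unfold thL
  rw [h]
  simp only [cval, Finset.sum_add_distrib, smul_add]
  simp only [ContinuousLinearMap.add_apply, ContinuousLinearMap.smul_apply,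
    ContinuousLinearMap.sum_apply, ContinuousLinearMap.smulRight_apply,
    ContinuousLinearMap.comp_apply, ContinuousLinearMap.proj_apply,
    ContinuousLinearMap.coe_fst', ContinuousLinearMap.coe_snd']

theorem pA_tt (k : Fin 3) : pA (H25.tt k - lamV y) = H25.tt k - lamV y := by
  have h1 : ∀ k, H25.tt k 0 = 0 := by intro k; fin_cases k <;> simp [H25.tt]
  have h2 : ∀ k, H25.tt k 2 = 0 := by intro k; fin_cases k <;> simp [H25.tt]
  have h3 : lamV y 0 = 0 := by
    simp only [lamV, Pi.smul_apply, Finset.sum_apply, smul_eq_mul, h1, mul_zero,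
      Finset.sum_const_zero]
  have h4 : lamV y 2 = 0 := by
    simp only [lamV, Pi.smul_apply, Finset.sum_apply, smul_eq_mul, h2, mul_zero,
      Finset.sum_const_zero]
  funext i
  fin_cases i
  · simp [pA, h1, h3]
  · simp [pA]
  · simp [pA, h2, h4]
  · simp [pA]

theorem thL_free {j : L} {k : Fin 3} (hj : R.pl j = Sum.inl k) {c : Fin 3 × ℕ}
    (h : H573.cmp R B j = Sum.inr c) (v : Co R m) :
    thL R m B y j v =
      (-(wreg.LX R.Cm R.n m k (rkF R hj) v).re) • ((2 / y k) • (H25.tt k - lamV y)) +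
      (wreg.LX R.Cm R.n m k (rkF R hj) v).im • ((1 / Real.pi) • H25.mm k) := by
  unfold thL
  rw [h]
  simp only
  split
  · rename_i k' hj'
    have hk : k' = k := by
      rw [hj] at hj'
      exact (Sum.inl.inj hj').symm
    subst hk
    rw [pA_tt]
    simp only [ContinuousLinearMap.add_apply, ContinuousLinearMap.smulRight_apply,
      ContinuousLinearMap.neg_apply, ContinuousLinearMap.comp_apply, Complex.reCLM_apply,
      Complex.imCLM_apply]
  · rename_i s hj'
    rw [hj] at hj'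
    cases hj'

/-- the directions: `-∂_u`, `∂_φ` of the gaps of `F`, and two base vectors -/
def gdir (F : Finset (W R m).Fr) (v : Bool → Co R m) : Option {f // f ∈ F} × Bool → Co R m
  | (some f, true) => (W R m).vec (.ph f.1)
  | (some f, false) => -(W R m).vec (.u f.1)
  | (none, b) => v b

/-- the logarithms of the gaps on a base vector -/
theorem Z_base {v : Co R m} (h1 : v.1 = 0) (h2 : v.2.1 = 0) (g : R.Gap) :
    (W R m).Z v g = if g = ⟨g.1, m g.1⟩ then -(v.2.2.1 g.1 : ℂ) + (v.2.2.2.1 g.1 : ℂ) * Complex.I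
      else 0 := by
  have e1 : ∀ k, (W R m).ul v k = v.2.2.1 k := by
    intro k
    simp [Reg.ul, h1]
  have e2 : ∀ k, (W R m).al v k = v.2.2.2.1 k := by
    intro k
    simp [Reg.al, h2]
  have hl : (W R m).last ((W R m).nk g) = ⟨g.1, m g.1⟩ := rfl
  unfold Reg.Z Reg.ug Reg.fg
  by_cases h : g = ⟨g.1, m g.1⟩
  · have h' : ¬ g ≠ (W R m).last ((W R m).nk g) := by
      rw [hl]
      exact not_not.2 h
    rw [dif_neg h', dif_neg h', if_pos h, e1, e2]
    rfl
  · have h' : g ≠ (W R m).last ((W R m).nk g) := h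
    rw [dif_pos h', dif_pos h', if_neg h, h1, h2]
    simp

theorem LX_base {v : Co R m} (h1 : v.1 = 0) (h2 : v.2.1 = 0) (k : Fin 3) (i : Fin (R.n k)) :
    wreg.LX R.Cm R.n m k i v = if (m k : ℕ) ≤ i then
      -(v.2.2.1 k : ℂ) + (v.2.2.2.1 k : ℂ) * Complex.I else 0 := by
  rw [wreg.LX, Reg.lS_apply]
  rw [Finset.sum_congr rfl fun g _ => Z_base R m h1 h2 g]
  have h3 : ∀ g ∈ wreg.bef R.n k i, (if g = (⟨g.1, m g.1⟩ : R.Gap) then
      -(v.2.2.1 g.1 : ℂ) + (v.2.2.2.1 g.1 : ℂ) * Complex.I else 0) =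
      if g = (⟨k, m k⟩ : R.Gap) then -(v.2.2.1 k : ℂ) + (v.2.2.2.1 k : ℂ) * Complex.I else 0 := by
    intro g hg
    obtain ⟨rfl, -⟩ := RB.mem_bef_iff.1 hg
    rfl
  rw [Finset.sum_congr rfl h3, Finset.sum_ite_eq']
  have h4 : ((⟨k, m k⟩ : R.Gap) ∈ wreg.bef R.n k i) ↔ (m k : ℕ) ≤ i := by
    rw [RB.mem_bef_iff]
    simp
  simp only [h4]

end Th

/-! ### the change of frame -/

section Main

variable {Q : RB} {m : ∀ k, Fin ((rg Q).n k + 1)}

/-- the large gaps -/
theorem big_fr (hm : ∀ k, (m k).1 ∈ Q.B k) : big (rg Q) m (Q.fr m) = gB Q := by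
  ext g
  constructor
  · intro h
    rcases Finset.mem_union.1 h with h | h
    · obtain ⟨f, hf, rfl⟩ := Finset.mem_map.1 h
      exact Finset.mem_filter.2 ⟨Finset.mem_univ _, mem_frS.1 hf⟩
    · obtain ⟨k, -, rfl⟩ := Finset.mem_image.1 h
      exact Finset.mem_filter.2 ⟨Finset.mem_univ _, hm k⟩
  · intro h
    have hg : (g.2 : ℕ) ∈ Q.B g.1 := (Finset.mem_filter.1 h).2
    refine Finset.mem_union.2 ?_
    by_cases h : g = ⟨g.1, m g.1⟩
    · exact Or.inr (Finset.mem_image.2 ⟨g.1, Finset.mem_univ _, h.symm⟩)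
    · exact Or.inl (Finset.mem_map.2 ⟨⟨g, h⟩, mem_frS.2 hg, rfl⟩)

variable (h9 : ∑ k, (Q.B k).card = 9) (hm : ∀ k, (m k).1 ∈ Q.B k)

include hm in
/-- is the eliminated gap before the cluster -/
theorem last_before {j : L} {k : Fin 3} (hj : (rg Q).pl j = Sum.inl k) {c : Fin 6}
    (hc : H573.cmp (rg Q) (gB Q) j = Sum.inr (Q.kp c, Q.rp c)) :
    (m k : ℕ) ≤ Q.rk j ↔ Q.ix (Q.kp c) (m (Q.kp c)) < Q.rp c := by
  rw [cmp_gB] at hc
  obtain ⟨h1, h2, -, -⟩ := RB.comp_eq_inr.1 hc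
  have h3 : k = Q.kp c := by
    have h4 : Q.pl j = Sum.inl k := hj
    rw [h4] at h1
    exact Sum.inl.inj h1
  subst h3
  rw [← h2]
  exact (RB.ix_lt_cnt (hm _)).symm

omit h9 hm in
theorem map_symm {α β : Type*} (ν : α ≃ β) (x : Option β) :
    Option.map ν (Equiv.optionCongr ν.symm x) = x := by
  cases x with
  | none => rfl
  | some b => exact congrArg some (ν.apply_symm_apply b)

/-- the gap frame, numbered -/
def thg (y : Fin 3 → ℝ) (v : Bool → Co (rg Q) m) (ν : Fin 6 ≃ {f // f ∈ Q.fr m}) (j : Fin 14)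
    (x : Option (Fin 6) × Bool) : H4 :=
  thL (rg Q) m (gB Q) y (mrk j) (gdir (rg Q) m (Q.fr m) v (x.1.map ν, x.2))

/-- the cluster frame, numbered -/
def thc (y : Fin 3 → ℝ) (l : Bool → H4) (j : Fin 14) (x : Option (Fin 6) × Bool) : H4 :=
  lgC (rg Q) (gB Q) y l (mrk j) (x.1.map (clE h9), x.2)

theorem lgC_some (R : H95.Region) (B : Finset R.Gap) (y : Fin 3 → ℝ) (l : Bool → H4) (j : L)
    (c : Cl R B) (b : Bool) : lgC R B y l j (some c, b) =
      if H573.cmp R B j = Sum.inr (c.1.1, (c.1.2 : ℕ)) then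
        (if b then (1 / Real.pi) • H25.mm c.1.1 else (2 / y c.1.1) • (H25.tt c.1.1 - lamV y))
      else 0 := rfl

theorem lgC_none_inl {R : H95.Region} {B : Finset R.Gap} (y : Fin 3 → ℝ) (l : Bool → H4) {j : L}
    {s : Bool} (h : H573.cmp R B j = Sum.inl s) (b : Bool) : lgC R B y l j (none, b) =
      (if s then (-1 : ℝ) else 1) • l b := by
  change (match H573.cmp R B j with
    | Sum.inl s => (if s then (-1 : ℝ) else 1) • l b
    | Sum.inr _ => 0) = _
  rw [h]

theorem lgC_none_inr {R : H95.Region} {B : Finset R.Gap} (y : Fin 3 → ℝ) (l : Bool → H4) {j : L}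
    {c : Fin 3 × ℕ} (h : H573.cmp R B j = Sum.inr c) (b : Bool) :
    lgC R B y l j (none, b) = 0 := by
  change (match H573.cmp R B j with
    | Sum.inl s => (if s then (-1 : ℝ) else 1) • l b
    | Sum.inr _ => 0) = _
  rw [h]

/-- the sum over the clusters -/
theorem sum_cl {y : Fin 3 → ℝ} {l : Bool → H4} {j : Fin 14} {c : Fin 6}
    (hc : H573.cmp (rg Q) (gB Q) (mrk j) = Sum.inr (Q.kp c, Q.rp c)) (F : Fin 6 → ℝ) (b : Bool) :
    ∑ c', F c' • thc h9 y l j (some c', b) =
      F c • (if b then (1 / Real.pi) • H25.mm (Q.kp c)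
        else (2 / y (Q.kp c)) • (H25.tt (Q.kp c) - lamV y)) := by
  rw [Finset.sum_eq_single c]
  · congr 1
    change lgC (rg Q) (gB Q) y l (mrk j) (some (clE h9 c), b) = _
    rw [lgC_some, clE_snd, clE_fst, if_pos hc]
  · intro c' _ hcc
    have : thc h9 y l j (some c', b) = 0 := by
      change lgC (rg Q) (gB Q) y l (mrk j) (some (clE h9 c'), b) = _
      rw [lgC_some, if_neg]
      intro h
      rw [hc] at h
      simp only [Sum.inr.injEq, Prod.mk.injEq] at h
      exact hcc (RB.eq_of_kp_rp h9 h.1.symm h.2.symm)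
    rw [this, smul_zero]
  · intro h
    exact absurd (Finset.mem_univ _) h

theorem sum_cl_core {y : Fin 3 → ℝ} {l : Bool → H4} {j : Fin 14} {s : Bool}
    (hc : H573.cmp (rg Q) (gB Q) (mrk j) = Sum.inl s) (F : Fin 6 → ℝ) (b : Bool) :
    ∑ c', F c' • thc h9 y l j (some c', b) = 0 := by
  refine Finset.sum_eq_zero fun c' _ => ?_
  have : thc h9 y l j (some c', b) = 0 := by
    change lgC (rg Q) (gB Q) y l (mrk j) (some (clE h9 c'), b) = _
    rw [lgC_some, if_neg]
    intro h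
    rw [hc] at h
    cases h
  rw [this, smul_zero]

include h9 in
/-- a cluster or a core -/
theorem cases_cmp (j : L) : (∃ s, H573.cmp (rg Q) (gB Q) j = Sum.inl s) ∨
    ∃ c : Fin 6, H573.cmp (rg Q) (gB Q) j = Sum.inr (Q.kp c, Q.rp c) := by
  rcases hl : Q.loc j with _ | c
  · left
    rw [cmp_gB]
    exact RB.loc_none.1 hl
  · right
    exact ⟨c, by rw [cmp_gB]; exact (RB.loc_some h9).1 hl⟩

include h9 in
theorem loc_of_cmp {j : L} {c : Fin 6}
    (hc : H573.cmp (rg Q) (gB Q) j = Sum.inr (Q.kp c, Q.rp c)) :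
    Q.loc j = some c ∧ ∃ hj : (rg Q).pl j = Sum.inl (Q.kp c), True := by
  rw [cmp_gB] at hc
  exact ⟨(RB.loc_some h9).2 hc, (RB.comp_eq_inr.1 hc).1, trivial⟩

include hm in
theorem thg_some (y : Fin 3 → ℝ) (v : Bool → Co (rg Q) m) (l : Bool → H4)
    (ν : Fin 6 ≃ {f // f ∈ Q.fr m}) (j : Fin 14) (f : Fin 6) (b : Bool) :
    thg y v ν j (some f, b) = ∑ c, ((if b then (1 : ℝ) else -1) * (Q.am m (ν f) c : ℤ)) •
      thc h9 y l j (some c, b) := by
  rcases cases_cmp h9 (mrk j) with ⟨s, hs⟩ | ⟨c, hc⟩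
  · rw [sum_cl_core h9 hs]
    change thL (rg Q) m (gB Q) y (mrk j) (gdir (rg Q) m (Q.fr m) v (some (ν f), b)) = 0
    rw [thL_core _ _ _ _ hs]
    have : cval (rg Q) m y (gdir (rg Q) m (Q.fr m) v (some (ν f), b)) = 0 := by
      cases b <;> simp [cval, gdir, Reg.vec]
    rw [this, smul_zero]
  · rw [sum_cl h9 hc]
    obtain ⟨hl, hj, -⟩ := loc_of_cmp h9 hc
    change thL (rg Q) m (gB Q) y (mrk j) (gdir (rg Q) m (Q.fr m) v (some (ν f), b)) = _
    rw [thL_free _ _ _ _ hj hc]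
    cases b
    · have e1 := RB.LX_u (T := Q) (m := m) (rg Q).Cm h9 hm (ν f).2 (x := mrk j) hj
        (i := rkF (rg Q) hj) rfl
      rw [hl] at e1
      simp only [Option.elim_some] at e1
      have e2 : wreg.LX (rg Q).Cm (rg Q).n m (Q.kp c) (rkF (rg Q) hj)
          (gdir (rg Q) m (Q.fr m) v (some (ν f), false)) = ((Q.am m (ν f) c : ℤ) : ℂ) := by
        change wreg.LX (rg Q).Cm (rg Q).n m (Q.kp c) (rkF (rg Q) hj)
          (-(W (rg Q) m).vec (.u (ν f).1)) = _
        rw [map_neg]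
        refine (congrArg Neg.neg e1).trans (neg_neg _)
      rw [e2]
      simp
    · have e1 := RB.LX_ph (T := Q) (m := m) (rg Q).Cm h9 hm (ν f).2 (x := mrk j) hj
        (i := rkF (rg Q) hj) rfl
      rw [hl] at e1
      simp only [Option.elim_some] at e1
      have e2 : wreg.LX (rg Q).Cm (rg Q).n m (Q.kp c) (rkF (rg Q) hj)
          (gdir (rg Q) m (Q.fr m) v (some (ν f), true)) =
            ((Q.am m (ν f) c : ℤ) : ℂ) * Complex.I := e1
      rw [e2]
      simp

include hm in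
theorem thg_none (y : Fin 3 → ℝ) (v : Bool → Co (rg Q) m) (hv : ∀ b, (v b).1 = 0 ∧ (v b).2.1 = 0)
    (ν : Fin 6 ≃ {f // f ∈ Q.fr m}) (j : Fin 14) (b : Bool) :
    thg y v ν j (none, b) = thc h9 y (fun b => cval (rg Q) m y (v b)) j (none, b) +
      ∑ x : Fin 6 × Bool, ((if Q.ix (Q.kp x.1) (m (Q.kp x.1)) < Q.rp x.1 then (1 : ℝ) else 0) *
        (if x.2 then (v b).2.2.2.1 (Q.kp x.1) else (v b).2.2.1 (Q.kp x.1))) •
        thc h9 y (fun b => cval (rg Q) m y (v b)) j (some x.1, x.2) := by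
  rw [Fintype.sum_prod_type_right, Fintype.sum_bool]
  rcases cases_cmp h9 (mrk j) with ⟨s, hs⟩ | ⟨c, hc⟩
  · rw [sum_cl_core h9 hs, sum_cl_core h9 hs]
    change thL (rg Q) m (gB Q) y (mrk j) (v b) = _
    rw [thL_core _ _ _ _ hs, add_zero, add_zero]
    change _ = lgC (rg Q) (gB Q) y _ (mrk j) (none, b)
    rw [lgC_none_inl _ _ hs]
  · rw [sum_cl h9 hc, sum_cl h9 hc]
    obtain ⟨hl, hj, -⟩ := loc_of_cmp h9 hc
    change thL (rg Q) m (gB Q) y (mrk j) (v b) = _
    rw [thL_free _ _ _ _ hj hc, LX_base _ _ (hv b).1 (hv b).2]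
    have e0 : thc h9 y (fun b => cval (rg Q) m y (v b)) j (none, b) = 0 := by
      exact lgC_none_inr _ _ hc b
    have e1 := last_before hm hj hc
    have e2 : ((m (Q.kp c) : ℕ) ≤ (rkF (rg Q) hj : ℕ)) ↔
        Q.ix (Q.kp c) (m (Q.kp c)) < Q.rp c := e1
    rw [e0, zero_add]
    simp only [e2, if_true]
    by_cases h : Q.ix (Q.kp c) (m (Q.kp c)) < Q.rp c
    · simp only [if_pos h, one_mul]
      rw [add_comm]
      congr 2 <;> simp
    · simp only [if_neg h, zero_mul, zero_smul, Complex.zero_re, Complex.zero_im, neg_zero,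
        add_zero]

include h9 hm in
/-- **S6-uni.** The value on the gap directions of the large free gaps and two base vectors is the
value on the cluster directions. -/
theorem DT_gap (T : MT) (n : ℕ) (y : Fin 3 → ℝ) (v : Bool → Co (rg Q) m)
    (hv : ∀ b, (v b).1 = 0 ∧ (v b).2.1 = 0) (s : Fin 7 ≃ Option {f // f ∈ Q.fr m}) :
    DT (fun x => grT n T x)
      (fun (j : Fin 14) (d : Co (rg Q) m) => thL (rg Q) m (big (rg Q) m (Q.fr m)) y (mrk j) d)
      (fun i : Fin 14 => gdir (rg Q) m (Q.fr m) v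
        (s ⟨i / 2, by omega⟩, decide ((i : ℕ) % 2 = 1))) =
    DTc (rg Q) T n (gB Q) y fun b => cval (rg Q) m y (v b) := by
  classical
  obtain ⟨ν, -⟩ : ∃ ν : Fin 6 ≃ {f // f ∈ Q.fr m}, True := ⟨RB.nu h9 hm, trivial⟩
  obtain ⟨l, hl⟩ : ∃ l : Bool → H4, l = fun b => cval (rg Q) m y (v b) := ⟨_, rfl⟩
  rw [← hl]
  -- numbered gap frame
  have h1 : DT (fun x => grT n T x)
      (fun (j : Fin 14) (d : Co (rg Q) m) => thL (rg Q) m (big (rg Q) m (Q.fr m)) y (mrk j) d)
      (fun i : Fin 14 => gdir (rg Q) m (Q.fr m) v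
        (s ⟨i / 2, by omega⟩, decide ((i : ℕ) % 2 = 1))) =
      DT (fun x => (grT n T).toMultilinearMap x) (thg y v ν)
        (nump (s.trans (Equiv.optionCongr ν.symm))) := by
    rw [big_fr hm]
    unfold DT
    refine Finset.sum_congr rfl fun π _ => ?_
    congr 2
    funext j
    change _ = thg y v ν j (nump (s.trans (Equiv.optionCongr ν.symm)) (π j))
    rw [nump_apply]
    have e := map_symm ν (s ⟨(π j : Fin 14) / 2, by omega⟩)
    exact congrArg (fun o => thL (rg Q) m (gB Q) y (mrk j)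
      (gdir (rg Q) m (Q.fr m) v (o, decide (((π j : Fin 14) : ℕ) % 2 = 1)))) e.symm
  -- change of frame
  have h2 := DT_pairs (grT n T).toMultilinearMap (thg y v ν) (thc h9 y l)
    (fun b => Matrix.of fun f c => ((if b then (1 : ℝ) else -1) * (Q.am m (ν f) c : ℤ)))
    (fun b x => (if Q.ix (Q.kp x.1) (m (Q.kp x.1)) < Q.rp x.1 then (1 : ℝ) else 0) *
        (if x.2 then (v b).2.2.2.1 (Q.kp x.1) else (v b).2.2.1 (Q.kp x.1)))
    (fun j f b => thg_some h9 hm y v l ν j f b)
    (fun j b => by rw [hl]; exact thg_none h9 hm y v hv ν j b)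
    (nump (s.trans (Equiv.optionCongr ν.symm)))
  have h3 : ∏ b : Bool, (Matrix.of fun (f c : Fin 6) =>
      ((if b then (1 : ℝ) else -1) * (Q.am m (ν f) c : ℤ))).det = 1 := by
    rw [Fintype.prod_bool]
    have e1 : (Matrix.of fun (f c : Fin 6) => ((if (true : Bool) then (1 : ℝ) else -1) *
        (Q.am m (ν f) c : ℤ))) = Matrix.of fun i c => ((Q.am m (ν i) c : ℤ) : ℝ) := by
      ext f c
      simp
    have e2 : (Matrix.of fun (f c : Fin 6) => ((if (false : Bool) then (1 : ℝ) else -1) *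
        (Q.am m (ν f) c : ℤ))) = -Matrix.of fun i c => ((Q.am m (ν i) c : ℤ) : ℝ) := by
      ext f c
      simp
    rw [e1, e2, Matrix.det_neg, Fintype.card_fin]
    have h4 := RB.det_am_sq h9 ν
    linear_combination h4
  rw [h1, h2, h3, one_mul, DTc, dif_pos (card_cl h9)]
  rw [DT_nump (fun x => (grT n T).toMultilinearMap x) (thc h9 y l) _
    ((Fintype.equivFinOfCardEq (card_cl h9)).symm.trans (Equiv.optionCongr (clE h9).symm))]
  unfold DT
  refine Finset.sum_congr rfl fun π _ => ?_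
  congr 2
  funext j
  rw [nump_apply]
  have e := map_symm (clE h9) ((Fintype.equivFinOfCardEq (card_cl h9)).symm
    ⟨(π j : Fin 14) / 2, by omega⟩)
  exact congrArg (fun o => lgC (rg Q) (gB Q) y l (mrk j)
    (o, decide (((π j : Fin 14) : ℕ) % 2 = 1))) e

theorem cval_al (R : H95.Region) (m : ∀ k, Fin (R.n k + 1)) (y : Fin 3 → ℝ) (c : ℝ) (i : Fin 3) :
    cval R m y (c • (W R m).vec (.al i)) = c • dlA y i := by
  unfold cval
  rw [Finset.sum_eq_single i]
  · simp [Reg.vec]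
  · intro l _ hl
    simp [Reg.vec, Pi.single_eq_of_ne hl]
  · intro h
    exact absurd (Finset.mem_univ _) h

theorem cval_y (R : H95.Region) (m : ∀ k, Fin (R.n k + 1)) (y : Fin 3 → ℝ) (i : Fin 3) :
    cval R m y ((W R m).vec (.y i)) = dlY y i := by
  unfold cval
  rw [Finset.sum_eq_single i]
  · simp [Reg.vec]
  · intro l _ hl
    simp [Reg.vec, Pi.single_eq_of_ne hl]
  · intro h
    exact absurd (Finset.mem_univ _) h

include h9 hm in
/-- S6-uni for the tori. -/
theorem DT_gap_tor (T : MT) (n : ℕ) (y : Fin 3 → ℝ) (i j : Fin 3)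
    (s : Fin 7 ≃ Option {f // f ∈ Q.fr m}) :
    DT (fun x => grT n T x)
      (fun (j : Fin 14) (d : Co (rg Q) m) => thL (rg Q) m (big (rg Q) m (Q.fr m)) y (mrk j) d)
      (fun r : Fin 14 => gdir (rg Q) m (Q.fr m)
        (fun b => if b then (-2 * Real.pi) • (W (rg Q) m).vec (.al j) else
          (-2 * Real.pi) • (W (rg Q) m).vec (.al i))
        (s ⟨r / 2, by omega⟩, decide ((r : ℕ) % 2 = 1))) =
    DTc (rg Q) T n (gB Q) y fun b => (-2 * Real.pi) • dlA y (if b then j else i) := by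
  rw [DT_gap h9 hm T n y _ (fun b => by cases b <;> simp [Reg.vec]) s]
  congr 1
  funext b
  cases b
  · exact cval_al _ _ _ _ _
  · exact cval_al _ _ _ _ _

include h9 hm in
/-- S6-uni for the annuli. -/
theorem DT_gap_ann (T : MT) (n : ℕ) (y : Fin 3 → ℝ) (i : Fin 3)
    (s : Fin 7 ≃ Option {f // f ∈ Q.fr m}) :
    DT (fun x => grT n T x)
      (fun (j : Fin 14) (d : Co (rg Q) m) => thL (rg Q) m (big (rg Q) m (Q.fr m)) y (mrk j) d)
      (fun r : Fin 14 => gdir (rg Q) m (Q.fr m)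
        (fun b => if b then (-2 * Real.pi) • (W (rg Q) m).vec (.al i) else
          (W (rg Q) m).vec (.y i))
        (s ⟨r / 2, by omega⟩, decide ((r : ℕ) % 2 = 1))) =
    DTc (rg Q) T n (gB Q) y fun b => if b then (-2 * Real.pi) • dlA y i else dlY y i := by
  rw [DT_gap h9 hm T n y _ (fun b => by cases b <;> simp [Reg.vec]) s]
  congr 1
  funext b
  cases b
  · exact cval_y _ _ _ _
  · exact cval_al _ _ _ _ _

end Main

end Vale.Agent.P273.H285

end
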