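import Vale.Agent.P273.H254.Frame
import Mathlib.LinearAlgebra.Matrix.Basis
import Mathlib.LinearAlgebra.Determinant

/-!
P273, row S6-uni, part 1 (algebra): change of the gap frame to the cluster frame in `DT`, any index
types; the pairs of directions may be numbered in any order.
-/

noncomputable section

namespace Vale.Agent.P273.H285

open Finset Vale.Agent.P273.H254

section Gen

variable {ι V : Type*} [Fintype ι] [DecidableEq ι] [AddCommGroup V] [Module ℝ V]

/-- An alternating form on linear combinations. -/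
theorem alt_comb (f : V [⋀^ι]→ₗ[ℝ] ℝ) (M : Matrix ι ι ℝ) (Y : ι → V) :
    f (fun i => ∑ j, M i j • Y j) = M.det * f Y := by
  have h := AlternatingMap.eq_smul_basis_det (R := ℝ) (e := Pi.basisFun ℝ ι)
    (f.compLinearMap (Fintype.linearCombination ℝ Y))
  have h1 := congrArg (fun g : (ι → ℝ) [⋀^ι]→ₗ[ℝ] ℝ => g fun i => M i) h
  simp only [AlternatingMap.compLinearMap_apply, AlternatingMap.smul_apply, smul_eq_mul] at h1
  have h2 : (fun i => Fintype.linearCombination ℝ Y (M i)) = fun i => ∑ j, M i j • Y j := by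
    funext i
    rw [Fintype.linearCombination_apply]
  have h3 : (fun i => Fintype.linearCombination ℝ Y ((Pi.basisFun ℝ ι) i)) = Y := by
    funext i
    rw [Fintype.linearCombination_apply]
    simp [Pi.basisFun_apply, Pi.single_apply]
  have h4 : (Pi.basisFun ℝ ι).det (fun i => M i) = M.det := by
    rw [Module.Basis.det_apply]
    have : (Pi.basisFun ℝ ι).toMatrix (fun i => M i) = M.transpose := by
      ext i j
      simp [Module.Basis.toMatrix_apply]
    rw [this, Matrix.det_transpose]
  rw [h2, h3, h4] at h1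
  rw [h1, mul_comm]

end Gen

variable {ι H : Type*} [Fintype ι] [DecidableEq ι] [AddCommGroup H] [Module ℝ H]

/-- General change of frame. -/
theorem DT_comb {δ : Type*} [Fintype δ] [DecidableEq δ]
    (T : MultilinearMap ℝ (fun _ : ι => H) ℝ) (θ θ' : ι → δ → H) (N : Matrix δ δ ℝ)
    (h : ∀ j x, θ j x = ∑ y, N x y • θ' j y) (e : ι ≃ δ) :
    DT (fun x => T x) θ e = N.det * DT (fun x => T x) θ' e := by
  rw [DT_eq_aDT, DT_eq_aDT, ← Matrix.det_submatrix_equiv_self e N, ← alt_comb]
  congr 1
  funext i j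
  rw [h, Finset.sum_apply, ← Equiv.sum_comp e]
  rfl

variable {K : Type*} [Fintype K] [DecidableEq K]

/-- Pairs and the base pair. -/
def opB : (K × Bool) ⊕ Bool ≃ Option K × Bool where
  toFun := Sum.elim (fun x => (some x.1, x.2)) fun b => (none, b)
  invFun x := x.1.elim (Sum.inr x.2) fun k => Sum.inl (k, x.2)
  left_inv := by rintro (⟨k, b⟩ | b) <;> rfl
  right_inv := by rintro ⟨(_ | k), b⟩ <;> rfl

/-- **Change of frame with pairs.** -/
theorem DT_pairs (T : MultilinearMap ℝ (fun _ : ι => H) ℝ) (θ θ' : ι → Option K × Bool → H)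
    (a : Bool → Matrix K K ℝ) (β : Bool → K × Bool → ℝ)
    (h1 : ∀ j f b, θ j (some f, b) = ∑ c, a b f c • θ' j (some c, b))
    (h2 : ∀ j b, θ j (none, b) = θ' j (none, b) + ∑ x : K × Bool, β b x • θ' j (some x.1, x.2))
    (e : ι ≃ Option K × Bool) :
    DT (fun x => T x) θ e = (∏ b, (a b).det) * DT (fun x => T x) θ' e := by
  obtain ⟨M, hM⟩ : ∃ M : Matrix ((K × Bool) ⊕ Bool) ((K × Bool) ⊕ Bool) ℝ,
      M = Matrix.fromBlocks (Matrix.blockDiagonal a) 0 (Matrix.of β) 1 := ⟨_, rfl⟩
  have hdet : M.det = ∏ b, (a b).det := by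
    rw [hM, Matrix.det_fromBlocks_zero₁₂, Matrix.det_blockDiagonal, Matrix.det_one, mul_one]
  rw [← hdet, ← Matrix.det_submatrix_equiv_self opB.symm M]
  refine DT_comb T θ θ' _ ?_ e
  intro j x
  rw [← Equiv.sum_comp opB]
  simp only [Matrix.submatrix_apply, Equiv.symm_apply_apply]
  rw [Fintype.sum_sum_type]
  obtain ⟨x', rfl⟩ := opB.surjective x
  rw [Equiv.symm_apply_apply]
  rcases x' with ⟨f, b⟩ | b
  · have e1 : opB (Sum.inl (f, b) : (K × Bool) ⊕ Bool) = (some f, b) := rfl
    rw [e1, h1]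
    simp only [hM, Matrix.fromBlocks_apply₁₁, Matrix.fromBlocks_apply₁₂, Matrix.zero_apply,
      zero_smul, Finset.sum_const_zero, add_zero, Matrix.blockDiagonal_apply]
    rw [Fintype.sum_prod_type]
    refine Finset.sum_congr rfl fun c _ => ?_
    rw [Finset.sum_eq_single b]
    · simp [opB]
    · intro b' _ hb
      rw [if_neg (Ne.symm hb), zero_smul]
    · intro hb
      exact absurd (Finset.mem_univ _) hb
  · have e1 : opB (Sum.inr b : (K × Bool) ⊕ Bool) = (none, b) := rfl
    rw [e1, h2]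
    simp only [hM, Matrix.fromBlocks_apply₂₁, Matrix.fromBlocks_apply₂₂, Matrix.of_apply]
    rw [add_comm]
    congr 1
    rw [Finset.sum_eq_single b]
    · rw [Matrix.one_apply_eq, one_smul]
      rfl
    · intro b' _ hb
      rw [Matrix.one_apply_ne (Ne.symm hb), zero_smul]
    · intro hb
      exact absurd (Finset.mem_univ _) hb

/-! ### pairs move without sign -/

/-- The numbering by pairs. -/
def e7 : Fin 14 ≃ Fin 7 × Bool where
  toFun i := (⟨i / 2, by omega⟩, decide ((i : ℕ) % 2 = 1))
  invFun x := ⟨2 * x.1 + (if x.2 then 1 else 0), by split_ifs <;> omega⟩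
  left_inv i := by
    ext
    by_cases h : (i : ℕ) % 2 = 1
    · simp only [h, decide_true, if_true]; omega
    · simp only [h, decide_false]
      change 2 * ((i : ℕ) / 2) + 0 = i
      omega
  right_inv x := by
    obtain ⟨p, b⟩ := x
    cases b
    · refine Prod.ext (Fin.ext ?_) ?_
      · change (2 * (p : ℕ) + 0) / 2 = p
        omega
      · change decide ((2 * (p : ℕ) + 0) % 2 = 1) = false
        rw [decide_eq_false_iff_not]
        omega
    · refine Prod.ext (Fin.ext ?_) ?_
      · change (2 * (p : ℕ) + 1) / 2 = p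
        omega
      · change decide ((2 * (p : ℕ) + 1) % 2 = 1) = true
        rw [decide_eq_true_iff]
        omega

/-- The numbering of the directions by a numbering of the pairs. -/
def nump {P : Type*} (s : Fin 7 ≃ P) : Fin 14 ≃ P × Bool := e7.trans (s.prodCongr (Equiv.refl Bool))

theorem nump_apply {P : Type*} (s : Fin 7 ≃ P) (i : Fin 14) :
    nump s i = (s ⟨i / 2, by omega⟩, decide ((i : ℕ) % 2 = 1)) := rfl

/-- The value does not depend on the numbering of the pairs. -/
theorem DT_nump {P H G : Type*} [AddCommGroup G] (T : (Fin 14 → H) → G)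
    (θ : Fin 14 → P × Bool → H) (s t : Fin 7 ≃ P) : DT T θ (nump s) = DT T θ (nump t) := by
  obtain ⟨π, hπ⟩ : ∃ π : Equiv.Perm (Fin 7), π = s.trans t.symm := ⟨_, rfl⟩
  obtain ⟨ρ, hρ⟩ : ∃ ρ : Equiv.Perm (Fin 14),
      ρ = e7.symm.permCongr (Equiv.prodCongrLeft fun _ : Bool => π) := ⟨_, rfl⟩
  have h1 : (fun j => nump t (ρ j)) = nump s := by
    funext j
    rw [hρ, Equiv.permCongr_apply, Equiv.symm_symm]
    simp only [nump, Equiv.trans_apply, Equiv.apply_symm_apply]
    obtain ⟨⟨p, b⟩, rfl⟩ := e7.symm.surjective j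
    rw [Equiv.apply_symm_apply]
    simp [hπ, Equiv.prodCongrLeft]
  have h2 : Equiv.Perm.sign ρ = 1 := by
    rw [hρ, Equiv.Perm.sign_permCongr, Equiv.Perm.sign_prodCongrLeft]
    rw [Fintype.prod_bool, Int.units_mul_self]
  rw [← h1, DT_perm, h2, one_smul]

end Vale.Agent.P273.H285
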