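import Vale.Agent.P273.H285.Uni
import Vale.Agent.P273.H573.SumDefs

/-!
P273: the literal Prop `H573.Uni` (S6-uni).
-/

noncomputable section

namespace Vale.Agent.P273.H285

open Finset Vale.Agent.P273.H254 Vale.Agent.P273.H732 Vale.Agent.P273.H562
open Vale.Agent.P273.H95 Vale.Agent.P273.H728 Vale.Agent.P273.H93
open Vale.Agent.P273.H573 hiding cmp

theorem dty_eq (R : H95.Region) (m : ∀ k, Fin (R.n k + 1)) (B : Finset (W R m).Fr) (a b : Co R m)
    (x : Option {f // f ∈ B}) (c : Bool) :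
    dty R m B a b x c = gdir R m B (fun c => if c then b else a) (x, c) := by
  rcases x with _ | f
  · rfl
  · cases c <;> rfl

theorem cval_eq (R : H95.Region) (m : ∀ k, Fin (R.n k + 1)) (y : Fin 3 → ℝ) (v : Co R m) :
    H573.cval R m y v = H285.cval R m y v := by
  unfold H573.cval H285.cval
  rw [Finset.sum_add_distrib]

theorem uni_aux {Q : RB} {m : ∀ k, Fin ((rg Q).n k + 1)} (hm : ∀ k, (m k).1 ∈ Q.B k)
    (T : MT) (n : ℕ) (B : Finset (W (rg Q) m).Fr) (hB : Q.fr m = B) (h6 : B.card = 6)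
    (y : Fin 3 → ℝ) (a b : Co (rg Q) m) (ha : a.1 = 0) (ha' : a.2.1 = 0) (hb : b.1 = 0)
    (hb' : b.2.1 = 0) (e₇ : Fin 7 ≃ Option {f // f ∈ B}) :
    H254.DT (fun x => grT n T x)
        (fun i (d : Co (rg Q) m) => thL (rg Q) m (big (rg Q) m B) y (mrk i) d)
        (fun i : Fin 14 => dty (rg Q) m B a b (e₇ ⟨i / 2, by omega⟩)
          (decide ((i : ℕ) % 2 = 1))) =
      DTc (rg Q) T n (big (rg Q) m B) y fun c => if c then H573.cval (rg Q) m y b
        else H573.cval (rg Q) m y a := by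
  subst hB
  have h9 : ∑ k, (Q.B k).card = 9 := by
    have h1 := RB.card_fr (T := Q) (m := m) hm
    have h2 : ∀ k, 1 ≤ (Q.B k).card := fun k => Finset.card_pos.2 (Q.ne k)
    have h3 : ∑ k, ((Q.B k).card - 1) = 6 := h1.symm.trans h6
    rw [Fin.sum_univ_three] at h3 ⊢
    have := h2 0
    have := h2 1
    have := h2 2
    omega
  have h := DT_gap h9 hm T n y (fun c => if c then b else a)
    (fun c => by cases c <;> simp [ha, ha', hb, hb']) e₇
  refine (congrArg (DT _ _) (funext fun i => dty_eq _ _ _ _ _ _ _)).trans (h.trans ?_)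
  rw [big_fr hm]
  congr 1
  funext c
  cases c
  · exact (cval_eq _ _ _ _).symm
  · exact (cval_eq _ _ _ _).symm

/-- **(S6-uni)** -/
theorem uni : Uni := by
  intro R m T n B y a b hB ha ha' hb hb' e₇
  exact uni_aux (Q := mkRB (conv93 R) m B) (m := m) (fun _ => mem_gaps.2 (Or.inl rfl)) T n B
    (frS_gaps m B) hB y a b ha ha' hb hb' e₇

end Vale.Agent.P273.H285

end
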