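import Vale.Agent.P273.H285.ValsT

/-!
# The circles of the tori: tables of `v1`, `v3`, `v5`
-/

noncomputable section

namespace Vale.Agent.P273.H285

open Vale.Agent.P273.H213 Vale.Agent.P273.H221 Vale.Agent.P273.H25
open Vale.Agent.P273.H480 (tv1 tv3 tv5 tw13 tw15 tw35)
open Vale.Agent.P273.H681

theorem chk_v1 : eq4 (ad (sb (q2 tw13) tw13) (sb (q4 tw15) tw15)) tv1 = true := by decide +kernel

theorem chk_v3 : eq4 (ad (sb tw13 (q0 tw13)) (sb (q4 tw35) tw35)) tv3 = true := by decide +kernel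

theorem chk_v5 : eq4 (ad (sb tw15 (q0 tw15)) (sb tw35 (q2 tw35))) tv5 = true := by decide +kernel

variable {z : Cert sV} (h13 : z.w13 = fnT tw13) (h15 : z.w15 = fnT tw15) (h35 : z.w35 = fnT tw35)

include h13 h15 in
theorem v1_eq : z.v1 = fnT tv1 := by
  rw [Cert.v1, h13, h15, sV2, sV4, ← fnT_sb, ← fnT_sb, ← fnT_ad]
  exact fnT_eq chk_v1

include h13 h35 in
theorem v3_eq : z.v3 = fnT tv3 := by
  rw [Cert.v3, h13, h35, sV0, sV4, ← fnT_sb, ← fnT_sb, ← fnT_ad]
  exact fnT_eq chk_v3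

include h15 h35 in
theorem v5_eq : z.v5 = fnT tv5 := by
  rw [Cert.v5, h15, h35, sV0, sV2, ← fnT_sb, ← fnT_sb, ← fnT_ad]
  exact fnT_eq chk_v5

include h13 h15 h35

theorem vv_eq (i : Fin 3) : vv z i = fnT (tv i) := by
  fin_cases i
  · exact v1_eq h13 h15
  · exact v3_eq h13 h35
  · exact v5_eq h15 h35

theorem ww_eq (i : Fin 3) : ww z i = fnT (tw i) := by
  fin_cases i
  · exact h13
  · exact h15
  · exact h35

/-- **the symmetrized coefficients of every certificate with the three tables of `H480/Data2`** -/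
theorem coeff_w : H503.Coeff (CC z) (-27 / 28) :=
  coeff_fnT (vv_eq h13 h15 h35) (ww_eq h13 h15 h35)

end Vale.Agent.P273.H285

end
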