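import Vale.Agent.P273.H285.Nums
import Vale.Agent.P273.H666.Ctr
import Vale.Agent.P273.H681.Eng
import Vale.Agent.P273.H480.Data2

/-!
# The numbers of the certificate of `H480/Data2`
-/

noncomputable section

namespace Vale.Agent.P273.H285

open Finset MvPolynomial Vale.Agent.P273.H213 Vale.Agent.P273.H221 Vale.Agent.P273.H25
open Vale.Agent.P273.H480 (tv1 tv3 tv5 tw13 tw15 tw35)
open Vale.Agent.P273.H666 (hf rz nm tA tT fz fz_ann_half fz_tor)
open Vale.Agent.P273.H681 (Tb vl fnT)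

/-- twice the forms of the annuli -/
def tfA : Fin 3 → ℤ × ℤ × ℤ
  | 0 => (-1, 0, 2)
  | 1 => (1, -1, 0)
  | 2 => (0, 1, -2)

def tfD : Fin 3 → ℤ × ℤ × ℤ
  | 0 => (0, 2, -1)
  | 1 => (1, 0, 1)
  | 2 => (-2, 0, 1)

def tfB : Fin 3 → ℤ × ℤ × ℤ
  | 0 => (0, 0, -1)
  | 1 => (-1, 0, 1)
  | 2 => (0, 0, 1)

theorem hf_eq (L : ℤ × ℤ × ℤ) :
    hf L = lf ![0, (L.1 : ℝ) / 2, (L.2.1 : ℝ) / 2, 0, (L.2.2 : ℝ) / 2] := by
  rw [hf, H666.lf, lf_apply, Fin.sum_univ_five]
  simp only [rz, MvPolynomial.smul_eq_C_mul, div_eq_mul_inv, one_mul, map_mul, Matrix.cons_val,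
    map_zero, zero_mul, zero_add, add_zero]
  ring

theorem fA_hf (i : Fin 3) : fA i = hf (tfA i) := by
  rw [hf_eq]
  fin_cases i <;> refine lf_congr ?_ ?_ ?_ ?_ ?_ <;> simp [tfA]

theorem fD_hf (i : Fin 3) : fD i = hf (tfD i) := by
  rw [hf_eq]
  fin_cases i <;> refine lf_congr ?_ ?_ ?_ ?_ ?_ <;> simp [tfD]

theorem fB_hf (i : Fin 3) : fB i = hf (tfB i) := by
  rw [hf_eq]
  fin_cases i <;> refine lf_congr ?_ ?_ ?_ ?_ ?_ <;> simp [tfB]

theorem gA_lf : gA = H666.lf (rz (-1, 0, 2)) := by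
  rw [gA, H666.lf, lf_apply, Fin.sum_univ_five]
  simp [rz]

theorem gB_lf : gB = H666.lf (rz (0, 1, -2)) := by
  rw [gB, H666.lf, lf_apply, Fin.sum_univ_five]
  simp [rz]

/-- the tables of the annuli -/
def tv : Fin 3 → Tb
  | 0 => tv1
  | 1 => tv3
  | 2 => tv5

/-- the tables of the tori -/
def tw : Fin 3 → Tb
  | 0 => tw13
  | 1 => tw15
  | 2 => tw35

/-- the check of the numbers of the annuli -/
theorem chkN : ∀ i : Fin 3, ∀ a : Fin 8, ∀ b : Fin 8, a.1 + b.1 ≤ 7 →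
    nm (tfA i) (tfD i) (tfB i) a.1 b.1 (7 - a.1 - b.1) (tA (vl (tv i))) = gN i a.1 b.1 := by
  decide +kernel

/-- the check of the numbers of the tori -/
theorem chkM : ∀ i : Fin 3, ∀ a : Fin 7,
    nm (-1, 0, 2) (0, 1, -2) (0, 0, 0) a.1 (6 - a.1) 0 (tT (vl (tw i))) = gM i a.1 := by
  decide +kernel

/-- **the numbers of a certificate with the tables of `H480/Data2`** -/
theorem vals_of {z : Cert sV} (hv : ∀ i, vv z i = fnT (tv i)) (hw : ∀ i, ww z i = fnT (tw i)) :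
    Vals z NQ MQ where
  n i a b c h := by
    rw [hv, fA_hf, fD_hf, fB_hf]
    have e := fz_ann_half (vl (tv i)) (tfA i) (tfD i) (tfB i) h
    have hc : c = 7 - a - b := by omega
    have e2 := chkN i ⟨a, by omega⟩ ⟨b, by omega⟩ (by simp only; omega)
    simp only at e2
    rw [← hc] at e2
    rw [e2] at e
    rw [show fnT (tv i) = fz (vl (tv i)) from rfl, e, NQ]
    push_cast
    rfl
  m i a c h := by
    rw [hw, gA_lf, gB_lf]
    have e := fz_tor (vl (tw i)) (-1, 0, 2) (0, 1, -2) (0, 0, 0) (a := a) (b := c) (c := 0) h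
    have hc : c = 6 - a := by omega
    have e2 := chkM i ⟨a, by omega⟩
    simp only at e2
    rw [← hc] at e2
    rw [e2, pow_zero, mul_one, ← mul_assoc] at e
    rw [show fnT (tw i) = fz (vl (tw i)) from rfl, e, MQ]
    push_cast
    rfl

/-- **the symmetrized coefficients**, `K = -27/28` -/
theorem coeff_fnT {z : Cert sV} (hv : ∀ i, vv z i = fnT (tv i)) (hw : ∀ i, ww z i = fnT (tw i)) :
    H503.Coeff (CC z) (-27 / 28) := by
  have h := coeff_of (vals_of hv hw) chk_NM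
  push_cast at h
  exact h

end Vale.Agent.P273.H285

end
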